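import Vale.Agent.P325.H424.CoreThm
import Vale.Agent.P325.H914.OneTable
import Vale.Agent.P325.H685.GoodZoom
import Vale.Agent.P325.H719.ListBound
import Vale.Agent.P325.H290.Outer

/-!
# The core theorem from the structure theorem for expansion
-/

namespace Vale.Agent.P325.H424

open Vale.Agent.P325.Star

/-- The core theorem follows from the structure theorem. -/
theorem core_of_expansion (h : Expansion) : Core :=
  core_of (Vale.Agent.P325.H685.goodZoom_of_expansion h) Vale.Agent.P325.H719.listBound
    Vale.Agent.P325.H914.oneTable Vale.Agent.P325.H290.outerBound

end Vale.Agent.P325.H424
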