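import Mathlib

/-!
# Parameters and pigeonholes of the composition
-/

namespace Vale.Agent.P325.H424

open Finset Filter Topology

/-- The number of blocks and the probability of replacement. -/
theorem exists_params (C h r : ℝ) (n₀ : ℕ) (ε : ℝ) (hε : 0 < ε) :
    ∃ (k : ℕ) (β : ℝ), 0 < β ∧ β < 1 ∧ h ≤ k * β ∧ n₀ ≤ 2 * k ∧
      C * (√(Real.exp (k * β ^ 2 * r ^ 2) - 1) + β / (1 - β)) ≤ ε := by
  have hx : Tendsto (fun a : ℕ => (1 : ℝ) / (a : ℝ)) atTop (𝓝 0) :=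
    tendsto_one_div_atTop_nhds_zero_nat
  have hg : Tendsto (fun x : ℝ => C * (√(Real.exp (x ^ 2 * r ^ 2) - 1) + x ^ 3 / (1 - x ^ 3)))
      (𝓝 0) (𝓝 (C * (√(Real.exp ((0 : ℝ) ^ 2 * r ^ 2) - 1) + (0 : ℝ) ^ 3 / (1 - (0 : ℝ) ^ 3)))) := by
    apply ContinuousAt.tendsto
    refine ContinuousAt.mul continuousAt_const (ContinuousAt.add ?_ ?_)
    · exact Continuous.continuousAt (by fun_prop)
    · refine ContinuousAt.div (by fun_prop) (by fun_prop) (by norm_num)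
  have h0 : C * (√(Real.exp ((0 : ℝ) ^ 2 * r ^ 2) - 1) + (0 : ℝ) ^ 3 / (1 - (0 : ℝ) ^ 3)) = 0 := by
    norm_num
  rw [h0] at hg
  have h1 := (hg.comp hx).eventually (gt_mem_nhds hε)
  have h2 : ∀ᶠ a : ℕ in atTop, h ≤ (a : ℝ) := tendsto_natCast_atTop_atTop.eventually_ge_atTop h
  obtain ⟨a, h3, h4, h5, h6⟩ :=
    (h1.and (h2.and ((eventually_ge_atTop n₀).and (eventually_ge_atTop 2)))).exists
  have ha : (2 : ℝ) ≤ a := by exact_mod_cast h6
  have ha0 : (a : ℝ) ≠ 0 := by positivity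
  refine ⟨a ^ 4, (1 / (a : ℝ)) ^ 3, by positivity, ?_, ?_, ?_, ?_⟩
  · refine pow_lt_one₀ (by positivity) ?_ (by norm_num)
    rw [div_lt_one (by positivity)]
    linarith
  · have : ((a ^ 4 : ℕ) : ℝ) * (1 / (a : ℝ)) ^ 3 = a := by
      push_cast
      field_simp
    rw [this]
    exact h4
  · calc n₀ ≤ a := h5
      _ ≤ a ^ 4 := Nat.le_self_pow (by norm_num) a
      _ ≤ 2 * a ^ 4 := by omega
  · have h7 : ((a ^ 4 : ℕ) : ℝ) * ((1 / (a : ℝ)) ^ 3) ^ 2 = (1 / (a : ℝ)) ^ 2 := by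
      push_cast
      field_simp
    rw [h7]
    exact h3.le

/-- Averaging and pigeonhole. -/
theorem pigeon {U I : Type} [Fintype U] (s : Finset I) (hs : s.Nonempty) (a : U → ℝ)
    (D : I → U → ℝ) (δ α : ℝ) (ha : ∀ u, a u ≤ 1) (hδ : 0 ≤ δ) (hα : 0 ≤ α)
    (hD : ∀ i ∈ s, ∀ u, 0 ≤ D i u) (hsum : δ * Fintype.card U < ∑ u, a u)
    (h : ∀ u, δ / 2 ≤ a u → α ≤ ∑ i ∈ s, D i u) :
    ∃ i ∈ s, δ / 2 * α * Fintype.card U / #s ≤ ∑ u, D i u := by
  classical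
  have h1 : ∑ u, a u ≤ ∑ u, ((if δ / 2 ≤ a u then 1 else 0) + δ / 2) := by
    refine Finset.sum_le_sum fun u _ => ?_
    split_ifs with h2
    · linarith [ha u]
    · linarith
  rw [Finset.sum_add_distrib, Finset.sum_const, Finset.card_univ, nsmul_eq_mul] at h1
  have h2 : α * ∑ u, (if δ / 2 ≤ a u then (1 : ℝ) else 0) ≤ ∑ u, ∑ i ∈ s, D i u := by
    rw [Finset.mul_sum]
    refine Finset.sum_le_sum fun u _ => ?_
    split_ifs with h3
    · rw [mul_one]; exact h u h3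
    · rw [mul_zero]
      exact Finset.sum_nonneg fun i hi => hD i hi u
  rw [Finset.sum_comm] at h2
  have h3 : δ / 2 * α * Fintype.card U ≤ ∑ i ∈ s, ∑ u, D i u := by
    refine le_trans ?_ h2
    have h4 : δ / 2 * Fintype.card U ≤ ∑ u, (if δ / 2 ≤ a u then (1 : ℝ) else 0) := by
      linarith
    calc δ / 2 * α * Fintype.card U = α * (δ / 2 * Fintype.card U) := by ring
      _ ≤ _ := mul_le_mul_of_nonneg_left h4 hα
  have hc : (0 : ℝ) < #s := by exact_mod_cast hs.card_pos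
  have h4 : ∑ _i ∈ s, δ / 2 * α * Fintype.card U / #s ≤ ∑ i ∈ s, ∑ u, D i u := by
    rw [Finset.sum_const, nsmul_eq_mul, mul_div_cancel₀ _ hc.ne']
    exact h3
  exact Finset.exists_le_of_sum_le hs h4

/-- Enumeration of a finite set. -/
theorem exists_enum {α : Type} [Nonempty α] (X : Set α) (hX : X.Finite) (L : ℕ)
    (h : Nat.card X ≤ L) : ∃ g : ℕ → α, ∀ a ∈ X, ∃ l < L, g l = a := by
  classical
  have := hX.to_subtype
  let e := Finite.equivFin X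
  refine ⟨fun l => if hl : l < Nat.card X then (e.symm ⟨l, hl⟩ : X) else Classical.arbitrary α,
    fun a ha => ?_⟩
  refine ⟨e ⟨a, ha⟩, (e ⟨a, ha⟩).2.trans_le h, ?_⟩
  beta_reduce
  rw [dif_pos (e ⟨a, ha⟩).2]
  exact congrArg Subtype.val (e.symm_apply_apply ⟨a, ha⟩)

end Vale.Agent.P325.H424
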