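import Vale.Agent.P325.H424.Push

/-!
# Selection of candidates from good cosets
-/

namespace Vale.Agent.P325.H424

open Vale.Agent.P325.Star

section

variable {T W : Type} [AddCommGroup T] [Module F T] [AddCommGroup W] [Module F W]

/-- The maps of the coset do not depend on its representative. -/
theorem zm_congr (s : Tup T W) (B : Submodule F W) {M N : T →ₗ[F] W}
    (h : M - N ∈ zoom B (⊥ : Submodule F T)) : s.zm B M = s.zm B N := by
  ext X
  unfold Tup.zm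
  simp only [Set.mem_ofPred_eq]
  refine and_congr_left fun _ => ?_
  constructor
  · intro h1
    have := Submodule.add_mem _ h1 h
    simpa using this
  · intro h1
    have := Submodule.sub_mem _ h1 h
    simpa using this

theorem p_congr (s : Tup T W) (G : (T →ₗ[F] W) → W) (B : Submodule F W) {M N : T →ₗ[F] W}
    (h : M - N ∈ zoom B (⊥ : Submodule F T)) : s.p G B M = s.p G B N := by
  unfold Tup.p Tup.ev
  rw [zm_congr s B h]

theorem cand_congr (θ θ' : ℝ) (j : ℕ) (G : (T →ₗ[F] W) → W) (B : Submodule F W)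
    {M N : T →ₗ[F] W} (h : M - N ∈ zoom B (⊥ : Submodule F T)) :
    Cand θ θ' j G B M = Cand θ θ' j G B N := by
  ext s
  unfold Cand
  simp only [Set.mem_ofPred_eq]
  rw [p_congr s G B h]
  refine and_congr_right fun _ => and_congr_right fun _ => ?_
  refine forall_congr' fun A' => forall_congr' fun h' => forall_congr' fun _ =>
    forall_congr' fun a => ?_
  rw [p_congr _ G B h]

open Classical in
/-- An element of a set, if there is one. -/
noncomputable def pick {α : Type} (X : Set α) : Option α :=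
  if h : X.Nonempty then some h.some else none

theorem pick_mem {α : Type} {X : Set α} {a : α} (h : pick X = some a) : a ∈ X := by
  unfold pick at h
  split_ifs at h with hX
  rw [Option.some.injEq] at h
  rw [← h]
  exact hX.some_mem

theorem pick_ne_none {α : Type} {X : Set α} (h : X.Nonempty) : pick X ≠ none := by
  unfold pick
  rw [dif_pos h]
  exact Option.some_ne_none _

variable [Finite T] [Finite W]

/-- A good coset has a tuple with large agreement. -/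
theorem good_exists_tuple {R : ℕ} {ξ : ℝ} {G : (T →ₗ[F] W) → W} {B : Submodule F W}
    {N₀ : T →ₗ[F] W} (h : Good R ξ G B N₀) :
    ∃ s : Tup T W, Module.finrank F s.A ≤ R ∧ ξ ≤ s.p G B N₀ := by
  obtain ⟨A, N₁, t, h1, h2, h3⟩ := h
  refine ⟨⟨A, N₁ ∘ₗ A.subtype, t, 0⟩, h1, ?_⟩
  have hle : ∀ M : T →ₗ[F] W, M ∈ zoom B A → M ∈ zoom B (⊥ : Submodule F T) := by
    intro M hM
    rw [mem_zoom] at hM ⊢
    refine ⟨hM.1, fun a ha => ?_⟩
    rw [Submodule.mem_bot] at ha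
    rw [ha, map_zero]
  have hz : ∀ M : T →ₗ[F] W, M ∈ zoom B A ↔
      N₁ + M ∈ (⟨A, N₁ ∘ₗ A.subtype, t, 0⟩ : Tup T W).zm B N₀ := by
    intro M
    constructor
    · intro hM
      refine ⟨?_, ?_⟩
      · have h4 := Submodule.add_mem _ h2 (hle M hM)
        have h5 : N₁ + M - N₀ = N₁ - N₀ + M := by abel
        rw [h5]; exact h4
      · intro a
        have := (mem_zoom.1 hM).2 a a.2
        show N₁ a + M a = N₁ a
        rw [this, add_zero]
    · rintro ⟨h4, h5⟩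
      have h6 := Submodule.sub_mem _ h4 h2
      have h7 : N₁ + M - N₀ - (N₁ - N₀) = M := by abel
      rw [h7] at h6
      rw [mem_zoom] at h6 ⊢
      refine ⟨h6.1, fun a ha => ?_⟩
      have h8 : N₁ a + M a = N₁ a := h5 ⟨a, ha⟩
      simpa using h8
  have c1 : Nat.card (zoom B A) =
      Nat.card ((⟨A, N₁ ∘ₗ A.subtype, t, 0⟩ : Tup T W).zm B N₀) := by
    refine Nat.card_congr ((Equiv.addLeft N₁).subtypeEquiv fun M => ?_)
    exact hz M
  have c2 : Nat.card {M : T →ₗ[F] W | M ∈ zoom B A ∧ G (N₁ + M) = (N₁ + M) t} =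
      Nat.card ((⟨A, N₁ ∘ₗ A.subtype, t, 0⟩ : Tup T W).ev G B N₀) := by
    refine Nat.card_congr ((Equiv.addLeft N₁).subtypeEquiv fun M => ?_)
    show (M ∈ zoom B A ∧ G (N₁ + M) = (N₁ + M) t) ↔
      (N₁ + M ∈ (⟨A, N₁ ∘ₗ A.subtype, t, 0⟩ : Tup T W).zm B N₀ ∧
        G (N₁ + M) = (N₁ + M) t + 0)
    rw [← hz M, add_zero]
  rw [c1, c2] at h3
  unfold Tup.p
  rw [le_div_iff₀]
  · exact h3
  · rw [← c1]
    have : 0 < Nat.card (zoom B A) := Nat.card_pos
    exact_mod_cast this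

/-- Thresholds. -/
theorem exists_thr (R : ℕ) (ξ : ℝ) (hξ : 0 < ξ) : ∃ θ : ℕ → ℝ, (∀ j, 0 < θ j) ∧
    (∀ j, θ j ≤ 1) ∧ (∀ j ≤ R, θ j ≤ ξ) ∧ (∀ j ≤ R, θ 0 ≤ θ j) ∧
    ∀ j ≤ R, ∀ j' < j, θ j' ≤ θ j ^ 2 / (32 * 2 ^ (2 ^ j + j)) := by
  set ε : ℝ := min ξ (1 / (32 * 2 ^ (2 ^ R + R))) with hε
  have hc : (1 : ℝ) ≤ 32 * 2 ^ (2 ^ R + R) := by
    have : (1 : ℝ) ≤ 2 ^ (2 ^ R + R) := one_le_pow₀ (by norm_num)
    linarith
  have hε0 : 0 < ε := lt_min hξ (by positivity)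
  have hε1 : ε ≤ 1 := le_trans (min_le_right _ _) (by
    rw [div_le_one (by positivity)]; exact hc)
  refine ⟨fun j => ε ^ 3 ^ (R - j), fun j => by positivity, fun j => ?_, fun j hj => ?_,
    fun j hj => ?_, fun j hj j' hj' => ?_⟩
  · exact pow_le_one₀ hε0.le hε1
  · calc ε ^ 3 ^ (R - j) ≤ ε ^ 1 := pow_le_pow_of_le_one hε0.le hε1 (Nat.one_le_pow _ _ (by norm_num))
      _ = ε := pow_one _
      _ ≤ ξ := min_le_left _ _
  · exact pow_le_pow_of_le_one hε0.le hε1 (Nat.pow_le_pow_right (by norm_num) (by omega))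
  · have h1 : 2 * 3 ^ (R - j) + 1 ≤ 3 ^ (R - j') := by
      have h2 : 3 ^ (R - j + 1) ≤ 3 ^ (R - j') := Nat.pow_le_pow_right (by norm_num) (by omega)
      have h3 : 1 ≤ 3 ^ (R - j) := (Nat.one_le_pow _ _ (by norm_num))
      rw [pow_succ] at h2
      omega
    have h4 : ε ≤ 1 / (32 * 2 ^ (2 ^ j + j)) := by
      refine le_trans (min_le_right _ _) ?_
      refine one_div_le_one_div_of_le (by positivity) ?_
      refine mul_le_mul_of_nonneg_left ?_ (by norm_num)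
      refine pow_le_pow_right₀ (by norm_num) ?_
      have : 2 ^ j ≤ 2 ^ R := Nat.pow_le_pow_right (by norm_num) hj
      omega
    show ε ^ 3 ^ (R - j') ≤ (ε ^ 3 ^ (R - j)) ^ 2 / (32 * 2 ^ (2 ^ j + j))
    calc ε ^ 3 ^ (R - j') ≤ ε ^ (2 * 3 ^ (R - j) + 1) := pow_le_pow_of_le_one hε0.le hε1 h1
      _ = (ε ^ 3 ^ (R - j)) ^ 2 * ε := by rw [pow_succ, mul_comm 2, pow_mul]
      _ ≤ (ε ^ 3 ^ (R - j)) ^ 2 * (1 / (32 * 2 ^ (2 ^ j + j))) := by gcongr
      _ = _ := by rw [mul_one_div]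

/-- A good coset has a candidate of some dimension. -/
theorem good_exists_cand {R : ℕ} {ξ : ℝ} {θ : ℕ → ℝ} (h1 : ∀ j ≤ R, θ j ≤ ξ)
    (h2 : ∀ j ≤ R, ∀ j' < j, θ j' ≤ θ j ^ 2 / (32 * 2 ^ (2 ^ j + j)))
    {G : (T →ₗ[F] W) → W} {B : Submodule F W} {N₀ : T →ₗ[F] W} (h : Good R ξ G B N₀) :
    ∃ j ≤ R, (Cand (θ j) (θ j ^ 2 / (32 * 2 ^ (2 ^ j + j))) j G B N₀).Nonempty := by
  classical
  obtain ⟨s₀, h3, h4⟩ := good_exists_tuple h
  have hex : ∃ j, ∃ s : Tup T W, Module.finrank F s.A = j ∧ θ j ≤ s.p G B N₀ :=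
    ⟨_, s₀, rfl, (h1 _ h3).trans h4⟩
  have hle : Nat.find hex ≤ R := (Nat.find_min' hex ⟨s₀, rfl, (h1 _ h3).trans h4⟩).trans h3
  obtain ⟨s, h5, h6⟩ := Nat.find_spec hex
  refine ⟨Nat.find hex, hle, s, h5, h6, ?_⟩
  intro A' hA' hne a
  have hlt : Module.finrank F A' < Nat.find hex := by
    rw [← h5]
    exact Submodule.finrank_lt_finrank_of_lt (lt_of_le_of_ne hA' hne)
  have h7 := Nat.find_min hex hlt
  push Not at h7
  exact (h7 (s.sub A' hA' a) rfl).trans_le (h2 _ hle _ hlt)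

end

end Vale.Agent.P325.H424
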