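import Vale.Agent.P325.H424.OneTable
import Vale.Agent.P325.H424.Select
import Vale.Agent.P325.H424.Params

/-!
# The core theorem from the packages
-/

namespace Vale.Agent.P325.H424

open Finset Vale.Agent.P325.Star Vale.Agent.P325.H914

section

variable {k : ℕ} {W : Type} [AddCommGroup W] [Module F W] [DecidableEq W]

/-- The agreement of a table in coefficients. -/
theorem card_agree (f : (Fin k → Sym W) → W) (e : Fin k → Eqn) :
    Nat.card (agreeSet (GU f e)) = Nat.card {x : (Fin k → W × W) × W × (Fin k → F × F) |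
      tabU f e (bump x.1 x.2.1 x.2.2) = tabU f e x.1 ∨
        tabU f e (bump x.1 x.2.1 x.2.2) = tabU f e x.1 + x.2.1} := by
  symm
  refine Nat.card_congr ((Equiv.prodCongr (homE (k := k) (W := W))
    (Equiv.prodCongr (Equiv.refl W) (homE (k := k) (W := F)))).subtypeEquiv fun x => ?_)
  obtain ⟨n, c, l⟩ := x
  have h1 : homE.symm (hom n) = n := homE.symm_apply_apply n
  have h2 : homE.symm (hom n + one c (hom l)) = bump n c l := by
    rw [one, ← hom_bump]
    exact homE.symm_apply_apply _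
  show _ ↔ GU f e (hom n + one c (hom l)) = GU f e (hom n) ∨
    GU f e (hom n + one c (hom l)) = GU f e (hom n) + c
  unfold GU
  rw [h1, h2]
  exact Iff.rfl

end

theorem wts_nonneg {k : ℕ} {β : ℝ} (h0 : 0 ≤ β) (h1 : β ≤ 1) (τ : Fin k → Ty) :
    0 ≤ wts β τ := by
  unfold wts
  refine Finset.prod_nonneg fun i _ => ?_
  cases τ i <;> simp only [Ty.wt] <;> linarith

section

variable {k : ℕ} {W : Type} [AddCommGroup W] [Module F W] [DecidableEq W]

/-- The selected tuple of a table. -/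
noncomputable def Sel (θ : ℝ) (j : ℕ) (f : (Fin k → Sym W) → W) (e : Fin k → Eqn)
    (B : Submodule F W) (N : (Fin k → F × F) →ₗ[F] W) : Option (Tup (Fin k → F × F) W) :=
  pick (Cand θ (θ ^ 2 / (32 * 2 ^ (2 ^ j + j))) j (GU f e) B N)

/-- The coefficients for which the selected tuple becomes a candidate of the second prover. -/
def evSet (θ : ℝ) (j : ℕ) (f : (Fin k → Sym W) → W) (e : Fin k → Eqn) (B : Submodule F W)
    (τ : Fin k → Ty) : Set (Fin k → W × W) :=
  {n | ∃ s sV, Sel θ j f e B (hom fun i => (τ i).lift (n i)) = some s ∧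
    IsPush (piL τ) (vv e τ) s sV ∧
    sV ∈ Cand (θ / 2) (θ / 8) j (GV f fun i => (τ i).vb (e i)) B (hom fun i => (τ i).vis (n i))}

instance : Nonempty (Tup (Fin k → F × F) W) := ⟨⟨⊥, 0, 0, 0⟩⟩

/-- The strategies of the provers. -/
theorem exists_strategies {ι : Type} (q : ι → Eqn) (θ : ℝ) (j : ℕ) (f : (Fin k → Sym W) → W)
    (B : Submodule F W) (L : ℕ)
    (hL : ∀ (vb : Fin k → VB) (N : (Fin k → F × F) →ₗ[F] W),
      Nat.card (Cand (θ / 2) (θ / 8) j (GV f vb) B N) ≤ L ∧
        (Cand (θ / 2) (θ / 8) j (GV f vb) B N).Finite) :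
    ∃ (sU : (Fin k → ι) → (Fin k → W × W) → (Fin k → F × F))
      (sV : ℕ → (Fin k → VB) → (Fin k → W × W) → (Fin k → F)),
      ∀ u τ n, n ∈ evSet θ j f (fun i => q (u i)) B τ → ∃ l < L, Win q sU (sV l) u τ n := by
  choose g hg using fun (vb : Fin k → VB) (N : (Fin k → F × F) →ₗ[F] W) =>
    exists_enum _ (hL vb N).2 L (hL vb N).1
  refine ⟨fun u n => (Sel θ j f (fun i => q (u i)) B (hom n)).elim 0 Tup.t,
    fun l vb n i => ((g vb (hom n) l).t i).1, ?_⟩
  rintro u τ n ⟨s, sV, h1, h2, h3⟩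
  obtain ⟨l, hl, h4⟩ := hg _ _ _ h3
  refine ⟨l, hl, fun i hi => ?_⟩
  beta_reduce
  rw [h4, h1, h2.t_eq]
  exact value_eq (fun i => q (u i)) τ s.t i hi

variable [Fintype W]

/-- The union bound over the list. -/
theorem sum_evSet_le {ι : Type} [Fintype ι] (q : ι → Eqn) (θ : ℝ) (j : ℕ)
    (f : (Fin k → Sym W) → W) (B : Submodule F W) (L : ℕ)
    (sU : (Fin k → ι) → (Fin k → W × W) → (Fin k → F × F))
    (sV : ℕ → (Fin k → VB) → (Fin k → W × W) → (Fin k → F)) (τ : Fin k → Ty)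
    (h : ∀ u n, n ∈ evSet θ j f (fun i => q (u i)) B τ → ∃ l < L, Win q sU (sV l) u τ n) :
    ∑ u : Fin k → ι, (Nat.card (evSet θ j f (fun i => q (u i)) B τ) : ℝ) ≤
      ∑ l ∈ range L, (Nat.card {p : (Fin k → ι) × (Fin k → W × W) |
        Win q sU (sV l) p.1 τ p.2} : ℝ) := by
  classical
  have h1 : ∀ (u : Fin k → ι), Nat.card (evSet θ j f (fun i => q (u i)) B τ) =
      ∑ n : Fin k → W × W, if n ∈ evSet θ j f (fun i => q (u i)) B τ then 1 else 0 := by
    intro u
    rw [Nat.card_eq_fintype_card, Fintype.card_subtype, Finset.card_filter]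
  have h2 : ∀ l, Nat.card {p : (Fin k → ι) × (Fin k → W × W) | Win q sU (sV l) p.1 τ p.2} =
      ∑ u : Fin k → ι, ∑ n : Fin k → W × W, if Win q sU (sV l) u τ n then 1 else 0 := by
    intro l
    rw [Nat.card_eq_fintype_card, Fintype.card_subtype, Finset.card_filter,
      Fintype.sum_prod_type]
    rfl
  have h3 : ∑ u : Fin k → ι, Nat.card (evSet θ j f (fun i => q (u i)) B τ) ≤
      ∑ l ∈ range L, Nat.card {p : (Fin k → ι) × (Fin k → W × W) |
        Win q sU (sV l) p.1 τ p.2} := by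
    simp_rw [h1, h2]
    rw [Finset.sum_comm (s := range L)]
    refine Finset.sum_le_sum fun u _ => ?_
    rw [Finset.sum_comm (s := range L)]
    refine Finset.sum_le_sum fun n _ => ?_
    split_ifs with h4
    · obtain ⟨l, hl, h5⟩ := h u n h4
      have h6 : (if Win q sU (sV l) u τ n then 1 else 0 : ℕ) ≤
          ∑ l ∈ range L, if Win q sU (sV l) u τ n then 1 else 0 :=
        Finset.single_le_sum (f := fun l => if Win q sU (sV l) u τ n then (1 : ℕ) else 0)
          (fun _ _ => Nat.zero_le _) (Finset.mem_range.2 hl)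
      rw [if_pos h5] at h6
      exact h6
    · exact Nat.zero_le _
  exact_mod_cast h3

/-- The outer bound for the events. -/
theorem sum_event_le {ι : Type} [Fintype ι] [Nonempty ι] (q : ι → Eqn) (θ : ℝ) (j : ℕ)
    (f : (Fin k → Sym W) → W) (B : Submodule F W) (L : ℕ)
    (hL : ∀ (vb : Fin k → VB) (N : (Fin k → F × F) →ₗ[F] W),
      Nat.card (Cand (θ / 2) (θ / 8) j (GV f vb) B N) ≤ L ∧
        (Cand (θ / 2) (θ / 8) j (GV f vb) B N).Finite) (β ν : ℝ) (h0 : 0 ≤ β) (h1 : β ≤ 1)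
    (hO : ∀ (sU : (Fin k → ι) → (Fin k → W × W) → (Fin k → F × F))
      (sV : (Fin k → VB) → (Fin k → W × W) → (Fin k → F)),
      ∑ τ : Fin k → Ty, wts β τ *
        (Nat.card {p : (Fin k → ι) × (Fin k → W × W) | Win q sU sV p.1 τ p.2} /
          Fintype.card ((Fin k → ι) × (Fin k → W × W)) : ℝ) ≤ ν) :
    ∑ u : Fin k → ι, ∑ τ : Fin k → Ty, wts β τ *
      ((Nat.card (evSet θ j f (fun i => q (u i)) B τ) : ℝ) / Fintype.card (Fin k → W × W)) ≤
      Fintype.card (Fin k → ι) * (L * ν) := by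
  obtain ⟨sU, sV, hs⟩ := exists_strategies q θ j f B L hL
  have hU : (0 : ℝ) < Fintype.card (Fin k → ι) := by exact_mod_cast Fintype.card_pos
  have hN : (0 : ℝ) < Fintype.card (Fin k → W × W) := by exact_mod_cast Fintype.card_pos
  have h2 : ∑ l ∈ range L, ∑ τ : Fin k → Ty, wts β τ *
        (Nat.card {p : (Fin k → ι) × (Fin k → W × W) | Win q sU (sV l) p.1 τ p.2} /
          Fintype.card ((Fin k → ι) × (Fin k → W × W)) : ℝ) ≤ L * ν := by
    calc _ ≤ ∑ l ∈ range L, ν := Finset.sum_le_sum fun l _ => hO sU (sV l)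
      _ = L * ν := by rw [Finset.sum_const, Finset.card_range, nsmul_eq_mul]
  refine le_trans ?_ (mul_le_mul_of_nonneg_left h2 hU.le)
  rw [Finset.sum_comm, Finset.sum_comm (s := range L), Finset.mul_sum]
  refine Finset.sum_le_sum fun τ _ => ?_
  rw [← Finset.mul_sum, ← Finset.mul_sum, mul_left_comm]
  refine mul_le_mul_of_nonneg_left ?_ (wts_nonneg h0 h1 τ)
  rw [← Finset.sum_div, ← Finset.sum_div, Fintype.card_prod, Nat.cast_mul]
  have h5 : ∀ a b c : ℝ, 0 < a → 0 < c → a * (b / (a * c)) = b / c := by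
    intro a b c ha hc
    field_simp
  rw [h5 _ _ _ hU hN]
  exact div_le_div_of_nonneg_right (sum_evSet_le q θ j f B L sU sV τ fun u n => hs u τ n) hN.le

/-- The probability that a coset has a selected tuple of some dimension. -/
theorem selected_ge {R : ℕ} {ξ α : ℝ} {θ : ℕ → ℝ} (h1 : ∀ j ≤ R, θ j ≤ ξ)
    (h2 : ∀ j ≤ R, ∀ j' < j, θ j' ≤ θ j ^ 2 / (32 * 2 ^ (2 ^ j + j)))
    (f : (Fin k → Sym W) → W) (e : Fin k → Eqn) (B : Submodule F W)
    (hα : α * Nat.card ((Fin k → F × F) →ₗ[F] W) ≤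
      Nat.card {N₀ : (Fin k → F × F) →ₗ[F] W | Good R ξ (GU f e) B N₀}) :
    α ≤ ∑ j ∈ range (R + 1), (Nat.card {n : Fin k → W × W | Sel (θ j) j f e B (hom n) ≠ none} : ℝ) /
      Fintype.card (Fin k → W × W) := by
  classical
  have hN : (0 : ℝ) < Fintype.card (Fin k → W × W) := by exact_mod_cast Fintype.card_pos
  rw [← Finset.sum_div, le_div_iff₀ hN]
  have c1 : Nat.card ((Fin k → F × F) →ₗ[F] W) = Fintype.card (Fin k → W × W) := by
    rw [← Nat.card_eq_fintype_card]
    exact (Nat.card_congr homE).symm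
  have c2 : Nat.card {N₀ : (Fin k → F × F) →ₗ[F] W | Good R ξ (GU f e) B N₀} =
      Nat.card {n : Fin k → W × W | Good R ξ (GU f e) B (hom n)} := by
    symm
    exact Nat.card_congr (homE.subtypeEquiv fun n => Iff.rfl)
  rw [c1, c2] at hα
  refine hα.trans ?_
  have h3 : Nat.card {n : Fin k → W × W | Good R ξ (GU f e) B (hom n)} ≤
      ∑ j ∈ range (R + 1), Nat.card {n : Fin k → W × W | Sel (θ j) j f e B (hom n) ≠ none} := by
    have h4 : ∀ X : Set (Fin k → W × W), Nat.card X = ∑ n, if n ∈ X then 1 else 0 := by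
      intro X
      rw [Nat.card_eq_fintype_card, Fintype.card_subtype, Finset.card_filter]
    simp_rw [h4]
    rw [Finset.sum_comm]
    refine Finset.sum_le_sum fun n _ => ?_
    split_ifs with h5
    · obtain ⟨j, hj, h6⟩ := good_exists_cand h1 h2 h5
      have h7 := Finset.single_le_sum (s := range (R + 1))
        (f := fun j => if n ∈ {n : Fin k → W × W | Sel (θ j) j f e B (hom n) ≠ none}
          then (1 : ℕ) else 0) (fun _ _ => Nat.zero_le _) (Finset.mem_range.2 (Nat.lt_succ_of_le hj))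
      have h8 : n ∈ {n : Fin k → W × W | Sel (θ j) j f e B (hom n) ≠ none} := pick_ne_none h6
      rw [if_pos h8] at h7
      convert h7
    · exact Nat.zero_le _
  exact_mod_cast h3

end

/-- The core theorem. -/
theorem core_of (hGZ : GoodZoom) (hLB : ListBound) (hOT : OneTable) (hOB : OuterBound) : Core := by
  classical
  intro δ γ hδ hγ
  obtain ⟨R, ξ, hξ, hGZ⟩ := hGZ (δ / 2) (by positivity)
  obtain ⟨θ, hθ0, hθ1, hθξ, hθmono, hθ⟩ := exists_thr R ξ hξ
  choose m₀ hm₀ using fun j => hLB (θ j / 2) j (half_pos (hθ0 j))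
  set m := R + ∑ j ∈ range (R + 1), m₀ j with hm
  obtain ⟨α, hα, n₀, hGZ⟩ := hGZ m
  choose L hL using fun j => hm₀ j m
  set Lt := ∑ j ∈ range (R + 1), L j + 1 with hLt
  choose Cj hCj0 hCj using fun j => hOT (2 ^ m) j (θ j) (hθ0 j)
  set C := ∑ j ∈ range (R + 1), Cj j with hC
  have hPpos : 0 < Nat.card (Submodule F (Fin m → F)) := Nat.card_pos
  set P : ℕ := Nat.card (Submodule F (Fin m → F)) * (R + 1) with hP
  have hP0 : (0 : ℝ) < P := by
    have : 0 < P := Nat.mul_pos hPpos (Nat.succ_pos R)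
    exact_mod_cast this
  set ρ : ℝ := δ / 2 * α / P with hρ
  have hρ0 : 0 < ρ := by positivity
  have hLt0 : (0 : ℝ) < Lt := by
    have : 0 < Lt := Nat.succ_pos _
    exact_mod_cast this
  have hθ00 := hθ0 0
  obtain ⟨h, hh, hOB⟩ := hOB γ (θ 0 * ρ / (16 * Lt)) hγ (by positivity) (2 ^ m)
  obtain ⟨k, β, hβ0, hβ1, hk, hn₀, herr⟩ :=
    exists_params C h ((2 ^ m : ℕ) : ℝ) n₀ (θ 0 * ρ / 16) (by positivity)
  refine ⟨m, k, ?_⟩
  intro ι _ _ q hq f
  by_contra hcon
  push Not at hcon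
  have hcW : Fintype.card (Fin m → F) = 2 ^ m := by simp [F, ZMod.card]
  have hfW : Module.finrank F (Fin m → F) = m := Module.finrank_fin_fun F
  have hfT : Module.finrank F (Fin k → F × F) = 2 * k := by
    rw [Module.finrank_pi_fintype]
    simp [mul_comm]
  let e : (Fin k → ι) → Fin k → Eqn := fun u i => q (u i)
  let A : (Fin k → ι) → Set ((Fin k → (Fin m → F) × (Fin m → F)) × (Fin m → F) ×
      (Fin k → F × F)) := fun u => {x |
    tabU f (e u) (bump x.1 x.2.1 x.2.2) = tabU f (e u) x.1 ∨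
      tabU f (e u) (bump x.1 x.2.1 x.2.2) = tabU f (e u) x.1 + x.2.1}
  have hX0 : (0 : ℝ) < Fintype.card ((Fin k → (Fin m → F) × (Fin m → F)) × (Fin m → F) ×
      (Fin k → F × F)) := by exact_mod_cast Fintype.card_pos
  have hU0 : (0 : ℝ) < Fintype.card (Fin k → ι) := by exact_mod_cast Fintype.card_pos
  have hcard : (#{p : (Fin k → ι) × (Fin k → (Fin m → F) × (Fin m → F)) × (Fin m → F) ×
        (Fin k → F × F) |
        tabU f (fun i => q (p.1 i)) (bump p.2.1 p.2.2.1 p.2.2.2) =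
          tabU f (fun i => q (p.1 i)) p.2.1 ∨
        tabU f (fun i => q (p.1 i)) (bump p.2.1 p.2.2.1 p.2.2.2) =
          tabU f (fun i => q (p.1 i)) p.2.1 + p.2.2.1} : ℕ) = ∑ u, Nat.card (A u) := by
    rw [Finset.card_filter, Fintype.sum_prod_type]
    refine Finset.sum_congr rfl fun u _ => ?_
    rw [Nat.card_eq_fintype_card, Fintype.card_subtype, Finset.card_filter]
    rfl
  have hsum : δ * Fintype.card (Fin k → ι) < ∑ u, (Nat.card (A u) : ℝ) /
      Fintype.card ((Fin k → (Fin m → F) × (Fin m → F)) × (Fin m → F) × (Fin k → F × F)) := by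
    rw [← Finset.sum_div, lt_div_iff₀ hX0]
    rw [hcard, Fintype.card_prod (Fin k → ι)] at hcon
    push_cast at hcon ⊢
    rw [mul_assoc]
    exact hcon
  let s : Finset (Submodule F (Fin m → F) × ℕ) :=
    (Finset.univ : Finset (Submodule F (Fin m → F))).filter
      (fun B => Module.finrank F ((Fin m → F) ⧸ B) ≤ R) ×ˢ range (R + 1)
  have hs : s.Nonempty := by
    refine ⟨(⊤, 0), ?_⟩
    refine Finset.mem_product.2 ⟨Finset.mem_filter.2 ⟨Finset.mem_univ _, ?_⟩,
      Finset.mem_range.2 (Nat.succ_pos R)⟩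
    have : Subsingleton ((Fin m → F) ⧸ (⊤ : Submodule F (Fin m → F))) :=
      Submodule.Quotient.subsingleton_iff.2 rfl
    show Module.finrank F ((Fin m → F) ⧸ (⊤ : Submodule F (Fin m → F))) ≤ R
    rw [Module.finrank_zero_of_subsingleton]
    exact Nat.zero_le R
  have hsP : #s ≤ P := by
    rw [Finset.card_product, Finset.card_range, hP]
    refine Nat.mul_le_mul_right _ ?_
    refine (Finset.card_filter_le _ _).trans ?_
    rw [Finset.card_univ, Nat.card_eq_fintype_card]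
  let D : Submodule F (Fin m → F) × ℕ → (Fin k → ι) → ℝ := fun i u =>
    (Nat.card {n : Fin k → (Fin m → F) × (Fin m → F) |
      Sel (θ i.2) i.2 f (e u) i.1 (hom n) ≠ none} : ℝ) /
      Fintype.card (Fin k → (Fin m → F) × (Fin m → F))
  have hD : ∀ i u, 0 ≤ D i u := fun i u => by positivity
  obtain ⟨⟨B, j⟩, hi, hBj⟩ := pigeon s hs (fun u => (Nat.card (A u) : ℝ) /
      Fintype.card ((Fin k → (Fin m → F) × (Fin m → F)) × (Fin m → F) × (Fin k → F × F)))
    D δ α (by
      intro u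
      refine div_le_one_of_le₀ ?_ hX0.le
      have h1 : Nat.card (A u) ≤ Nat.card ((Fin k → (Fin m → F) × (Fin m → F)) × (Fin m → F) ×
          (Fin k → F × F)) := Finite.card_subtype_le _
      rw [Nat.card_eq_fintype_card (α := _ × _ × _)] at h1
      exact_mod_cast h1) hδ.le hα.le (fun i _ u => hD i u) hsum (by
      intro u hu
      have h1 : δ / 2 * Nat.card (((Fin k → F × F) →ₗ[F] (Fin m → F)) × (Fin m → F) ×
          Module.Dual F (Fin k → F × F)) ≤ Nat.card (agreeSet (GU f (e u))) := by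
        rw [card_agree]
        have h2 : Nat.card (((Fin k → F × F) →ₗ[F] (Fin m → F)) × (Fin m → F) ×
            Module.Dual F (Fin k → F × F)) = Fintype.card ((Fin k → (Fin m → F) × (Fin m → F)) ×
              (Fin m → F) × (Fin k → F × F)) := by
          rw [← Nat.card_eq_fintype_card]
          exact (Nat.card_congr (Equiv.prodCongr (homE (k := k) (W := Fin m → F))
            (Equiv.prodCongr (Equiv.refl (Fin m → F)) (homE (k := k) (W := F))))).symm
        rw [h2]
        rw [le_div_iff₀ hX0] at hu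
        exact hu
      obtain ⟨B, hB, h3⟩ := hGZ (Fin k → F × F) (Fin m → F) (GU f (e u)) hfW
        (by rw [hfT]; exact hn₀) h1
      have h4 := selected_ge hθξ hθ f (e u) B h3
      refine h4.trans ?_
      rw [Finset.sum_product]
      exact Finset.single_le_sum (f := fun B => ∑ j ∈ range (R + 1), D (B, j) u)
        (fun B' _ => Finset.sum_nonneg fun j _ => hD _ _)
        (Finset.mem_filter.2 ⟨Finset.mem_univ _, hB⟩))
  obtain ⟨hB, hj⟩ := Finset.mem_product.1 hi
  replace hB : Module.finrank F ((Fin m → F) ⧸ B) ≤ R := (Finset.mem_filter.1 hB).2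
  replace hj : j ∈ range (R + 1) := hj
  have hjR : j ≤ R := Nat.lt_succ_iff.1 (Finset.mem_range.1 hj)
  have hρU : ρ * Fintype.card (Fin k → ι) ≤ ∑ u, D (B, j) u := by
    refine le_trans ?_ hBj
    rw [hρ, div_mul_eq_mul_div]
    have hs0 : (0 : ℝ) < #s := by exact_mod_cast hs.card_pos
    have hsP' : (#s : ℝ) ≤ P := by exact_mod_cast hsP
    exact div_le_div_of_nonneg_left (by positivity) hs0 hsP'
  have hfB : m₀ j ≤ Module.finrank F B := by
    have h1 := Submodule.finrank_quotient_add_finrank B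
    rw [hfW] at h1
    have h2 : m₀ j ≤ ∑ j ∈ range (R + 1), m₀ j :=
      Finset.single_le_sum (f := m₀) (fun _ _ => Nat.zero_le _) hj
    omega
  have hlist : ∀ (vb : Fin k → VB) (N : (Fin k → F × F) →ₗ[F] (Fin m → F)),
      Nat.card (Cand (θ j / 2) (θ j / 8) j (GV f vb) B N) ≤ L j ∧
        (Cand (θ j / 2) (θ j / 8) j (GV f vb) B N).Finite := by
    intro vb N
    have h1 := hL j (Fin k → F × F) (Fin m → F) (GV f vb) B N hfW hfB
    have h2 : θ j / 2 / 4 = θ j / 8 := by ring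
    rw [h2] at h1
    exact h1
  have hV := sum_event_le q (θ j) j f B (L j) hlist β (θ 0 * ρ / (16 * Lt)) hβ0.le hβ1.le
    (fun sU sV => hOB (Fin m → F) hcW.le k β hβ0 hβ1 hk ι q hq sU sV)
  have hone : ∀ u : Fin k → ι, θ j / 4 * D (B, j) u -
      Cj j * (√(Real.exp (k * β ^ 2 * ((2 ^ m : ℕ) : ℝ) ^ 2) - 1) + β / (1 - β)) ≤
      ∑ τ : Fin k → Ty, wts β τ * ((Nat.card (evSet (θ j) j f (e u) B τ) : ℝ) /
        Fintype.card (Fin k → (Fin m → F) × (Fin m → F))) := by
    intro u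
    refine hCj j (Fin m → F) hcW.le k β hβ0 hβ1 f (e u) B (Sel (θ j) j f (e u) B) ?_ ?_
    · intro M N h
      unfold Sel
      rw [cand_congr _ _ _ _ _ h]
    · intro N s h
      exact pick_mem h
  have hsum2 := Finset.sum_le_sum fun u (_ : u ∈ (Finset.univ : Finset (Fin k → ι))) => hone u
  rw [Finset.sum_sub_distrib, ← Finset.mul_sum, Finset.sum_const, Finset.card_univ,
    nsmul_eq_mul] at hsum2
  have h1 : Cj j * (√(Real.exp (k * β ^ 2 * ((2 ^ m : ℕ) : ℝ) ^ 2) - 1) + β / (1 - β)) ≤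
      θ 0 * ρ / 16 := by
    refine le_trans ?_ herr
    refine mul_le_mul_of_nonneg_right ?_ ?_
    · exact Finset.single_le_sum (f := Cj) (fun j _ => hCj0 j) hj
    · have : 0 ≤ β / (1 - β) := div_nonneg hβ0.le (by linarith)
      positivity
  have h2 : (L j : ℝ) * (θ 0 * ρ / (16 * Lt)) ≤ θ 0 * ρ / 16 := by
    have h3 : (L j : ℝ) ≤ Lt := by
      have : L j ≤ Lt := (Finset.single_le_sum (f := L) (fun _ _ => Nat.zero_le _) hj).trans
        (Nat.le_succ _)
      exact_mod_cast this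
    calc (L j : ℝ) * (θ 0 * ρ / (16 * Lt)) ≤ Lt * (θ 0 * ρ / (16 * Lt)) := by gcongr
      _ = θ 0 * ρ / 16 := by field_simp
  have h3 : θ j / 4 * (ρ * Fintype.card (Fin k → ι)) ≤ θ j / 4 * ∑ u, D (B, j) u :=
    mul_le_mul_of_nonneg_left hρU (by have := hθ0 j; positivity)
  have h4 : θ 0 * ρ ≤ θ j * ρ := mul_le_mul_of_nonneg_right (hθmono j hjR) hρ0.le
  have h5 : Fintype.card (Fin k → ι) * ((L j : ℝ) * (θ 0 * ρ / (16 * Lt))) ≤
      Fintype.card (Fin k → ι) * (θ 0 * ρ / 16) := mul_le_mul_of_nonneg_left h2 hU0.le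
  have h6 : Fintype.card (Fin k → ι) *
      (Cj j * (√(Real.exp (k * β ^ 2 * ((2 ^ m : ℕ) : ℝ) ^ 2) - 1) + β / (1 - β))) ≤
      Fintype.card (Fin k → ι) * (θ 0 * ρ / 16) := mul_le_mul_of_nonneg_left h1 hU0.le
  have h7 : (Fintype.card (Fin k → ι) : ℝ) * (θ 0 * ρ) ≤
      Fintype.card (Fin k → ι) * (θ j * ρ) := mul_le_mul_of_nonneg_left h4 hU0.le
  have h8 : 0 < (Fintype.card (Fin k → ι) : ℝ) * (θ 0 * ρ) := by positivity
  linarith

end Vale.Agent.P325.H424
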