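import Vale.Agent.P325.H424.Transfer
import Vale.Agent.P325.H914.Transfer

/-!
# The statement about one table of the first prover
-/

namespace Vale.Agent.P325.H424

open Vale.Agent.P325.Star Vale.Agent.P325.H914

section

variable {k : ℕ} {W : Type} [AddCommGroup W] [Module F W] [DecidableEq W]

/-- The table of the first prover on linear maps. -/
def GU (f : (Fin k → Sym W) → W) (e : Fin k → Eqn) (N : (Fin k → F × F) →ₗ[F] W) : W :=
  tabU f e (homE.symm N)

/-- The table of the second prover on linear maps. -/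
def GV (f : (Fin k → Sym W) → W) (vb : Fin k → VB) (N : (Fin k → F × F) →ₗ[F] W) : W :=
  tabV f vb (homE.symm N)

end

/-- The selected tuples of the first prover become candidates of the second prover with
probability about `θ / 4`. -/
def OneTable : Prop := ∀ (r j : ℕ) (θ : ℝ), 0 < θ → ∃ C : ℝ, 0 ≤ C ∧
  ∀ (W : Type) [AddCommGroup W] [Module F W] [Fintype W] [DecidableEq W], Fintype.card W ≤ r →
  ∀ (k : ℕ) (β : ℝ), 0 < β → β < 1 →
  ∀ (f : (Fin k → Sym W) → W) (e : Fin k → Eqn) (B : Submodule F W)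
    (S : ((Fin k → F × F) →ₗ[F] W) → Option (Tup (Fin k → F × F) W)),
    (∀ M N, M - N ∈ zoom B (⊥ : Submodule F (Fin k → F × F)) → S M = S N) →
    (∀ N s, S N = some s → s ∈ Cand θ (θ ^ 2 / (32 * 2 ^ (2 ^ j + j))) j (GU f e) B N) →
    θ / 4 * ((Nat.card {n : Fin k → W × W | S (hom n) ≠ none} : ℝ) /
        Fintype.card (Fin k → W × W)) -
      C * (√(Real.exp (k * β ^ 2 * (r : ℝ) ^ 2) - 1) + β / (1 - β)) ≤
    ∑ τ : Fin k → Ty, wts β τ *
      ((Nat.card {n : Fin k → W × W | ∃ s sV, S (hom fun i => (τ i).lift (n i)) = some s ∧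
          IsPush (piL τ) (vv e τ) s sV ∧
          sV ∈ Cand (θ / 2) (θ / 8) j (GV f fun i => (τ i).vb (e i)) B
            (hom fun i => (τ i).vis (n i))} : ℝ) / Fintype.card (Fin k → W × W))

end Vale.Agent.P325.H424
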