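import Vale.Agent.P325.Star.Defs

/-!
# Tuples, densities of agreement and their behaviour under composition
-/

namespace Vale.Agent.P325.H424

open Vale.Agent.P325.Star

section

variable {T W : Type} [AddCommGroup T] [Module F T] [AddCommGroup W] [Module F W]

theorem char_two (w : W) : w + w = 0 := by
  rw [← two_smul F w, show (2 : F) = 0 from rfl, zero_smul]

/-- The map `N` shifted by `D : T → B`. -/
def sh (B : Submodule F W) (N : T →ₗ[F] W) (D : T →ₗ[F] B) : T →ₗ[F] W := N + B.subtype ∘ₗ D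

theorem sh_apply (B : Submodule F W) (N : T →ₗ[F] W) (D : T →ₗ[F] B) (t : T) :
    sh B N D t = N t + (D t : W) := rfl

theorem sh_sh (B : Submodule F W) (N : T →ₗ[F] W) (D D' : T →ₗ[F] B) :
    sh B (sh B N D) D' = sh B N (D + D') := by
  ext t; simp [sh_apply, add_assoc]

theorem sh_comp (B : Submodule F W) (N : T →ₗ[F] W) (D : T →ₗ[F] B) (π : T →ₗ[F] T) :
    (sh B N D) ∘ₗ π = sh B (N ∘ₗ π) (D ∘ₗ π) := by
  ext t; simp [sh_apply]

theorem sh_injective (B : Submodule F W) (N : T →ₗ[F] W) : Function.Injective (sh B N) := by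
  intro D D' h
  ext t
  have := congrArg (fun M => M t) h
  simpa [sh_apply] using this

theorem mem_zoom_bot {B : Submodule F W} {N M : T →ₗ[F] W} :
    M - N ∈ zoom B (⊥ : Submodule F T) ↔ ∃ D : T →ₗ[F] B, sh B N D = M := by
  rw [mem_zoom]
  constructor
  · rintro ⟨h, -⟩
    refine ⟨(M - N).codRestrict B h, ?_⟩
    ext t
    simp [sh_apply]
  · rintro ⟨D, rfl⟩
    refine ⟨fun v => ?_, ?_⟩
    · simp [sh_apply]
    · intro a ha
      rw [Submodule.mem_bot] at ha
      simp [ha]

/-- The event that the table `G` satisfies the tuple `s` at `M`. -/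
def Ev (s : Tup T W) (G : (T →ₗ[F] W) → W) (M : T →ₗ[F] W) : Prop :=
  (∀ a : s.A, M a = s.b a) ∧ G M = M s.t + s.w

/-- The density of agreement of `s` along `D ↦ (N + D) ∘ π`. -/
noncomputable def pp (s : Tup T W) (G : (T →ₗ[F] W) → W) (B : Submodule F W) (N : T →ₗ[F] W)
    (π : T →ₗ[F] T) : ℝ :=
  (Nat.card {D : T →ₗ[F] B // Ev s G ((sh B N D) ∘ₗ π)} : ℝ) *
    (Nat.card B : ℝ) ^ Module.finrank F s.A / Nat.card (T →ₗ[F] B)

variable [Finite T] [Finite W]

omit [Finite W] in
theorem card_hom (B : Type) [AddCommGroup B] [Module F B] [Finite B] (V : Type) [AddCommGroup V]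
    [Module F V] [Finite V] :
    Nat.card (V →ₗ[F] B) = Nat.card B ^ Module.finrank F V := by
  have h1 := Module.natCard_eq_pow_finrank (K := F) (V := V →ₗ[F] B)
  have h2 := Module.natCard_eq_pow_finrank (K := F) (V := B)
  rw [h1, h2, Module.finrank_linearMap, ← pow_mul, mul_comm]

instance finite_hom (V B : Type) [AddCommGroup V] [Module F V] [Finite V] [AddCommGroup B]
    [Module F B] [Finite B] : Finite (V →ₗ[F] B) :=
  Finite.of_injective (fun f : V →ₗ[F] B => (f : V → B)) DFunLike.coe_injective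

/-- The number of maps `T → B` vanishing on `A`. -/
theorem card_vanish (B : Type) [AddCommGroup B] [Module F B] [Finite B] (A : Submodule F T) :
    Nat.card {D : T →ₗ[F] B // ∀ a : A, D a = 0} * Nat.card B ^ Module.finrank F A =
      Nat.card (T →ₗ[F] B) := by
  have e : {D : T →ₗ[F] B // ∀ a : A, D a = 0} ≃ ((T ⧸ A) →ₗ[F] B) :=
    { toFun := fun D => A.liftQ D.1 (fun a ha => D.2 ⟨a, ha⟩)
      invFun := fun D => ⟨D ∘ₗ A.mkQ, fun a => by
        have : A.mkQ (a : T) = 0 := (Submodule.Quotient.mk_eq_zero A).2 a.2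
        rw [LinearMap.comp_apply, this, map_zero]⟩
      left_inv := fun D => by
        apply Subtype.ext
        exact A.liftQ_mkQ _ _
      right_inv := fun D => by
        apply Submodule.linearMap_qext
        exact A.liftQ_mkQ _ _ }
  have : Finite (T ⧸ A) := Finite.of_surjective _ A.mkQ_surjective
  rw [Nat.card_congr e, card_hom, card_hom, ← pow_add, Submodule.finrank_quotient_add_finrank]

/-- The number of shifts with prescribed values on `A`. -/
theorem card_prescribed (B : Submodule F W) (N : T →ₗ[F] W) (A : Submodule F T) (b : A →ₗ[F] W)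
    (h : ∃ D : T →ₗ[F] B, ∀ a : A, sh B N D a = b a) :
    Nat.card {D : T →ₗ[F] B // ∀ a : A, sh B N D a = b a} * Nat.card B ^ Module.finrank F A =
      Nat.card (T →ₗ[F] B) := by
  obtain ⟨D₀, h₀⟩ := h
  rw [← card_vanish B A]
  congr 1
  refine Nat.card_congr ((Equiv.subRight D₀).subtypeEquiv fun D => ?_)
  simp only [Equiv.subRight_apply]
  refine forall_congr' fun a => ?_
  rw [← h₀ a, sh_apply, sh_apply, add_right_inj, LinearMap.sub_apply, sub_eq_zero]
  exact ⟨fun h => Subtype.ext h, fun h => congrArg _ h⟩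

/-- The density of agreement of a tuple as a density over all shifts. -/
theorem p_eq (s : Tup T W) (G : (T →ₗ[F] W) → W) (B : Submodule F W) (N : T →ₗ[F] W) :
    s.p G B N = pp s G B N LinearMap.id := by
  have hev : Nat.card (s.ev G B N) =
      Nat.card {D : T →ₗ[F] B // Ev s G ((sh B N D) ∘ₗ LinearMap.id)} := by
    symm
    refine Nat.card_congr (Equiv.ofBijective
      (fun D => (⟨sh B N D.1, ⟨mem_zoom_bot.2 ⟨D.1, rfl⟩, D.2.1⟩, D.2.2⟩ : s.ev G B N)) ⟨?_, ?_⟩)
    · intro D D' h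
      exact Subtype.ext (sh_injective B N (congrArg Subtype.val h))
    · rintro ⟨M, ⟨h1, h2⟩, h3⟩
      obtain ⟨D, hD⟩ := mem_zoom_bot.1 h1
      refine ⟨⟨D, ?_, ?_⟩, Subtype.ext hD⟩
      · intro a
        rw [LinearMap.comp_id, hD]; exact h2 a
      · rw [LinearMap.comp_id, hD]; exact h3
  unfold Tup.p pp
  rw [hev]
  by_cases hz : ∃ D : T →ₗ[F] B, ∀ a : s.A, sh B N D a = s.b a
  · have hzm : Nat.card (s.zm B N) = Nat.card {D : T →ₗ[F] B // ∀ a : s.A, sh B N D a = s.b a} := by
      symm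
      refine Nat.card_congr (Equiv.ofBijective
        (fun D => (⟨sh B N D.1, mem_zoom_bot.2 ⟨D.1, rfl⟩, D.2⟩ : s.zm B N)) ⟨?_, ?_⟩)
      · intro D D' h
        exact Subtype.ext (sh_injective B N (congrArg Subtype.val h))
      · rintro ⟨M, h1, h2⟩
        obtain ⟨D, hD⟩ := mem_zoom_bot.1 h1
        exact ⟨⟨D, fun a => by rw [hD]; exact h2 a⟩, Subtype.ext hD⟩
    have h1 := card_prescribed B N s.A s.b hz
    have h2 : 0 < Nat.card (T →ₗ[F] B) := Nat.card_pos
    have h3 : 0 < Nat.card B := Nat.card_pos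
    rw [hzm]
    rw [← h1] at h2
    have h4 : 0 < Nat.card {D : T →ₗ[F] B // ∀ a : s.A, sh B N D a = s.b a} :=
      Nat.pos_of_mul_pos_right h2
    rw [← h1]
    push_cast
    have h5 : (0 : ℝ) < Nat.card {D : T →ₗ[F] B // ∀ a : s.A, sh B N D a = s.b a} := by
      exact_mod_cast h4
    have h6 : (0 : ℝ) < (Nat.card B : ℝ) ^ Module.finrank F s.A := by positivity
    field_simp
  · have h0 : Nat.card {D : T →ₗ[F] B // Ev s G ((sh B N D) ∘ₗ LinearMap.id)} = 0 := by
      rw [Nat.card_eq_zero]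
      left
      exact ⟨fun D => hz ⟨D.1, D.2.1⟩⟩
    rw [h0]
    simp

omit [Finite T] [Finite W] in
theorem pp_nonneg (s : Tup T W) (G : (T →ₗ[F] W) → W) (B : Submodule F W) (N : T →ₗ[F] W)
    (π : T →ₗ[F] T) : 0 ≤ pp s G B N π := by
  unfold pp; positivity

theorem p_le_one (s : Tup T W) (G : (T →ₗ[F] W) → W) (B : Submodule F W) (N : T →ₗ[F] W) :
    s.p G B N ≤ 1 := by
  unfold Tup.p
  refine div_le_one_of_le₀ ?_ (by positivity)
  have : Nat.card (s.ev G B N) ≤ Nat.card (s.zm B N) :=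
    Nat.card_mono (Set.toFinite _) fun M hM => hM.1
  exact_mod_cast this

omit [Finite T] [Finite W] in
/-- `pp` does not change when `N` is shifted. -/
theorem pp_sh (s : Tup T W) (G : (T →ₗ[F] W) → W) (B : Submodule F W) (N : T →ₗ[F] W)
    (D₀ : T →ₗ[F] B) (π : T →ₗ[F] T) : pp s G B (sh B N D₀) π = pp s G B N π := by
  unfold pp
  congr 3
  refine Nat.card_congr ((Equiv.addLeft D₀).subtypeEquiv fun D => ?_)
  simp [sh_sh]

end

end Vale.Agent.P325.H424
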