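import Vale.Agent.P325.H424.Push

/-!
# Transfer of candidates along a linear map of the space of points
-/

namespace Vale.Agent.P325.H424

open Vale.Agent.P325.Star

section

variable {T W : Type} [AddCommGroup T] [Module F T] [AddCommGroup W] [Module F W]

theorem Ev_iff (s : Tup T W) (G : (T →ₗ[F] W) → W) (M : T →ₗ[F] W) :
    Ev s G M ↔ (∀ x (hx : x ∈ s.A), M x = s.b ⟨x, hx⟩) ∧ G M = M s.t + s.w := by
  unfold Ev
  rw [Subtype.forall]

theorem Ev_sub (s : Tup T W) (A' : Submodule F T) (h : A' ≤ s.A) (a : s.A)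
    (G : (T →ₗ[F] W) → W) (M : T →ₗ[F] W) :
    Ev (s.sub A' h a) G M ↔
      (∀ x (hx : x ∈ A'), M x = s.b ⟨x, h hx⟩) ∧ G M = M (s.t + a) + (s.w + s.b a) := by
  rw [Ev_iff]
  exact Iff.rfl

/-- The restriction of `π` to the space of a tuple. -/
def rs (π : T →ₗ[F] T) (s : Tup T W) : s.A →ₗ[F] T := π ∘ₗ s.A.subtype

theorem rs_apply (π : T →ₗ[F] T) (s : Tup T W) (x : s.A) : rs π s x = π x := rfl

/-- The tuple `sV` is the image of the tuple `s` under `π`, with the point moved by `v`. -/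
structure IsPush (π : T →ₗ[F] T) (v : T) (s sV : Tup T W) : Prop where
  inj : ∀ x y : s.A, π x = π y → x = y
  mem : ∀ y, y ∈ sV.A ↔ ∃ x : s.A, π x = y
  val : ∀ (x : s.A) (y : T) (hy : y ∈ sV.A), π x = y → sV.b ⟨y, hy⟩ = s.b x
  t_eq : sV.t = π s.t + v
  w_eq : sV.w = s.w

theorem exists_push (π : T →ₗ[F] T) (v : T) (s : Tup T W) (h : Function.Injective (rs π s)) :
    ∃ sV : Tup T W, IsPush π v s sV := by
  have e := LinearEquiv.ofInjective (rs π s) h
  refine ⟨⟨LinearMap.range (rs π s),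
    s.b ∘ₗ (LinearEquiv.ofInjective (rs π s) h).symm.toLinearMap, π s.t + v, s.w⟩,
    ?_, ?_, ?_, rfl, rfl⟩
  · intro x y hxy
    exact h hxy
  · intro y
    exact LinearMap.mem_range
  · intro x y hy hxy
    show s.b ((LinearEquiv.ofInjective (rs π s) h).symm ⟨y, hy⟩) = s.b x
    congr 1
    rw [LinearEquiv.symm_apply_eq]
    exact Subtype.ext hxy.symm

/-- The event for a restriction of the image tuple. -/
theorem push_sub_Ev {π : T →ₗ[F] T} {v : T} {s sV : Tup T W} (h : IsPush π v s sV)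
    {G GV : (T →ₗ[F] W) → W} (hG : ∀ M, G (M ∘ₗ π) = GV M + M v)
    (A'' : Submodule F T) (hA : A'' ≤ sV.A) (a'' : sV.A) :
    ∃ (A' : Submodule F T) (hA' : A' ≤ s.A) (a : s.A),
      (A'' ≠ sV.A → A' ≠ s.A) ∧ Module.finrank F A' = Module.finrank F A'' ∧
      ∀ M, Ev (sV.sub A'' hA a'') GV M ↔ Ev (s.sub A' hA' a) G (M ∘ₗ π) := by
  obtain ⟨a, ha⟩ := (h.mem a'').1 a''.2
  refine ⟨A''.comap π ⊓ s.A, inf_le_right, a, ?_, ?_, ?_⟩
  · intro hne heq
    apply hne
    refine le_antisymm hA ?_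
    intro y hy
    obtain ⟨x, rfl⟩ := (h.mem y).1 hy
    have : (x : T) ∈ A''.comap π ⊓ s.A := by rw [heq]; exact x.2
    exact this.1
  · have hmap : A'' = (A''.comap π ⊓ s.A).map π := by
      apply le_antisymm
      · intro y hy
        obtain ⟨x, hx⟩ := (h.mem y).1 (hA hy)
        refine ⟨x, ⟨?_, x.2⟩, hx⟩
        show π x ∈ A''
        rw [hx]; exact hy
      · rintro _ ⟨x, hx, rfl⟩
        exact hx.1
    have hinj : ∀ x ∈ A''.comap π ⊓ s.A, ∀ y ∈ A''.comap π ⊓ s.A, π x = π y → x = y := by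
      intro x hx y hy hxy
      have := h.inj ⟨x, hx.2⟩ ⟨y, hy.2⟩ hxy
      exact congrArg Subtype.val this
    conv_rhs => rw [hmap]
    have e2 : (A''.comap π ⊓ s.A : Submodule F T) ≃ₗ[F]
        ((A''.comap π ⊓ s.A : Submodule F T).map π) := by
      refine LinearEquiv.ofBijective
        (π.restrict (p := A''.comap π ⊓ s.A) (q := (A''.comap π ⊓ s.A).map π)
          (fun x hx => ⟨x, hx, rfl⟩)) ⟨?_, ?_⟩
      · intro x y hxy
        exact Subtype.ext (hinj x x.2 y y.2 (congrArg Subtype.val hxy))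
      · rintro ⟨_, x, hx, rfl⟩
        exact ⟨⟨x, hx⟩, rfl⟩
    exact e2.finrank_eq
  · intro M
    have hb : sV.b a'' = s.b a := h.val a a'' a''.2 ha
    rw [Ev_sub, Ev_sub, h.t_eq, h.w_eq, hb, ← ha, hG]
    have h1 : (∀ x (hx : x ∈ A''), M x = sV.b ⟨x, hA hx⟩) ↔
        (∀ x (hx : x ∈ A''.comap π ⊓ s.A), (M ∘ₗ π) x = s.b ⟨x, hx.2⟩) := by
      constructor
      · intro h2 x hx
        have h3 := h2 (π x) hx.1
        rw [h.val ⟨x, hx.2⟩ (π x) (hA hx.1) rfl] at h3
        exact h3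
      · intro h2 y hy
        obtain ⟨x, hx⟩ := (h.mem y).1 (hA hy)
        rw [h.val x y (hA hy) hx]
        have h3 : (M ∘ₗ π) x = s.b ⟨x, x.2⟩ := h2 x ⟨by show π x ∈ A''; rw [hx]; exact hy, x.2⟩
        rw [← hx]
        exact h3
    have h2 : GV M = M (π s.t + v + π a) + (s.w + s.b a) ↔
        GV M + M v = (M ∘ₗ π) (s.t + a) + (s.w + s.b a) := by
      rw [LinearMap.comp_apply, map_add, map_add, map_add, map_add]
      have h3 := char_two (M v)
      constructor
      · intro h4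
        rw [h4]
        calc M (π s.t) + M v + M (π a) + (s.w + s.b a) + M v
            = M (π s.t) + M (π a) + (s.w + s.b a) + (M v + M v) := by abel
          _ = _ := by rw [h3, add_zero]
      · intro h4
        have h5 : GV M = GV M + M v + M v := by rw [add_assoc, h3, add_zero]
        rw [h5, h4]
        abel
    exact and_congr h1 h2

/-- The trivial restriction. -/
theorem sub_self_Ev (s : Tup T W) (G : (T →ₗ[F] W) → W) (M : T →ₗ[F] W) :
    Ev (s.sub s.A le_rfl 0) G M ↔ Ev s G M := by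
  rw [Ev_sub, Ev_iff]
  have h : s.t + ((0 : s.A) : T) = s.t := by simp
  rw [h, map_zero, add_zero]

theorem pp_sub_self (s : Tup T W) (G : (T →ₗ[F] W) → W) (B : Submodule F W) (N : T →ₗ[F] W)
    (π : T →ₗ[F] T) : pp (s.sub s.A le_rfl 0) G B N π = pp s G B N π := by
  unfold pp
  have h1 : Nat.card {D : T →ₗ[F] B // Ev (s.sub s.A le_rfl 0) G ((sh B N D) ∘ₗ π)} =
      Nat.card {D : T →ₗ[F] B // Ev s G ((sh B N D) ∘ₗ π)} :=
    Nat.card_congr (Equiv.subtypeEquivRight fun D => sub_self_Ev _ _ _)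
  rw [h1]
  rfl

variable [Finite T] [Finite W]

/-- Transfer of candidates: if the agreement of all restrictions of the candidate `s` of `G` at
`N ∘ π` is almost the same along `π`, then the image of `s` is a candidate of `GV`. -/
theorem push_mem_cand {π : T →ₗ[F] T} {v : T} {s sV : Tup T W} (h : IsPush π v s sV)
    {G GV : (T →ₗ[F] W) → W} (hG : ∀ M, G (M ∘ₗ π) = GV M + M v) {B : Submodule F W}
    {N NV : T →ₗ[F] W} (hN : NV ∘ₗ π = N ∘ₗ π) {θ θ' η : ℝ} {j : ℕ}
    (hs : s ∈ Cand θ θ' j G B (N ∘ₗ π))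
    (hc : ∀ (A' : Submodule F T) (hA' : A' ≤ s.A) (a : s.A),
      |pp (s.sub A' hA' a) G B N π - pp (s.sub A' hA' a) G B (N ∘ₗ π) LinearMap.id| ≤ η) :
    sV ∈ Cand (θ - η) (θ' + η) j GV B NV := by
  obtain ⟨h1, h2, h3⟩ := hs
  have hfin : Module.finrank F sV.A = Module.finrank F s.A := by
    have e2 : s.A ≃ₗ[F] sV.A := by
      refine LinearEquiv.ofBijective
        ((rs π s).codRestrict sV.A (fun x => (h.mem _).2 ⟨x, rfl⟩)) ⟨?_, ?_⟩
      · intro x y hxy
        exact h.inj x y (congrArg Subtype.val hxy)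
      · rintro ⟨y, hy⟩
        obtain ⟨x, hx⟩ := (h.mem y).1 hy
        exact ⟨x, Subtype.ext hx⟩
    exact e2.finrank_eq.symm
  have key : ∀ (A'' : Submodule F T) (hA : A'' ≤ sV.A) (a'' : sV.A)
      (A' : Submodule F T) (hA' : A' ≤ s.A) (a : s.A),
      Module.finrank F A' = Module.finrank F A'' →
      (∀ M, Ev (sV.sub A'' hA a'') GV M ↔ Ev (s.sub A' hA' a) G (M ∘ₗ π)) →
      (sV.sub A'' hA a'').p GV B NV = pp (s.sub A' hA' a) G B N π := by
    intro A'' hA a'' A' hA' a hf hM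
    rw [p_eq]
    unfold pp
    have h4 : Nat.card {D : T →ₗ[F] B //
        Ev (sV.sub A'' hA a'') GV ((sh B NV D) ∘ₗ LinearMap.id)} =
        Nat.card {D : T →ₗ[F] B // Ev (s.sub A' hA' a) G ((sh B N D) ∘ₗ π)} := by
      refine Nat.card_congr (Equiv.subtypeEquivRight fun D => ?_)
      rw [LinearMap.comp_id, hM, sh_comp, sh_comp, hN]
    have h5 : Module.finrank F (sV.sub A'' hA a'').A =
        Module.finrank F (s.sub A' hA' a).A := hf.symm
    rw [h4, h5]
  have h0 : sV.p GV B NV = pp s G B N π := by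
    have h5 : sV.p GV B NV = (sV.sub sV.A le_rfl 0).p GV B NV := by
      rw [p_eq, p_eq, pp_sub_self]
    rw [h5, ← pp_sub_self s G B N π]
    apply key
    · exact hfin.symm
    · intro M
      rw [sub_self_Ev, sub_self_Ev, Ev_iff, Ev_iff, h.t_eq, h.w_eq, hG]
      have h1 : (∀ x (hx : x ∈ sV.A), M x = sV.b ⟨x, hx⟩) ↔
          (∀ x (hx : x ∈ s.A), (M ∘ₗ π) x = s.b ⟨x, hx⟩) := by
        constructor
        · intro h2 x hx
          have h3 := h2 (π x) ((h.mem _).2 ⟨⟨x, hx⟩, rfl⟩)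
          rw [h.val ⟨x, hx⟩ (π x) _ rfl] at h3
          exact h3
        · intro h2 y hy
          obtain ⟨x, hx⟩ := (h.mem y).1 hy
          rw [h.val x y hy hx]
          have h3 : (M ∘ₗ π) x = s.b ⟨x, x.2⟩ := h2 x x.2
          rw [← hx]
          exact h3
      have h2 : GV M = M (π s.t + v) + s.w ↔ GV M + M v = (M ∘ₗ π) s.t + s.w := by
        rw [LinearMap.comp_apply, map_add]
        have h3 := char_two (M v)
        constructor
        · intro h4
          rw [h4]
          calc M (π s.t) + M v + s.w + M v = M (π s.t) + s.w + (M v + M v) := by abel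
            _ = _ := by rw [h3, add_zero]
        · intro h4
          have h5 : GV M = GV M + M v + M v := by rw [add_assoc, h3, add_zero]
          rw [h5, h4]
          abel
      exact and_congr h1 h2
  refine ⟨?_, ?_, ?_⟩
  · rw [hfin, h1]
  · rw [h0]
    have h5 := hc s.A le_rfl 0
    rw [pp_sub_self, pp_sub_self, ← p_eq] at h5
    have := (abs_le.1 h5).1
    linarith
  · intro A'' hA hne a''
    obtain ⟨A', hA', a, h4, h5, h6⟩ := push_sub_Ev h hG A'' hA a''
    rw [key A'' hA a'' A' hA' a h5 h6]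
    have h7 := h3 A' hA' (h4 hne) a
    rw [p_eq] at h7
    have h8 := (abs_le.1 (hc A' hA' a)).2
    linarith

end

end Vale.Agent.P325.H424
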